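import Vale.Agent.P181.RH.Defs
import Vale.Agent.P181.RH.H752.Peel2
import Vale.Agent.P181.RG.H968.Core

set_option autoImplicit false

/-!
# P181, RH [LOW]: the lower bound from the orbit inequality and the design
-/

namespace Vale.Agent.P181.RH.H486

open Finset Vale.Agent.P181 Vale.Agent.P181.H280 Vale.Agent.P181.H463
open Vale.Agent.P181.RH
open Vale.Agent.P181.RG.H968 (bal bal_le bal_le_of sum_bal sum_top)

/-- The weights of the rows in the special point. -/
def wt (D2 : ℕ) (j : ℕ) : ℕ := if j = 1 then D2 + 1 else if j = 2 then 1 else 0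

lemma pos_castAdd (D1 D2 l : ℕ) (i : Fin D1) :
    pos D1 D2 l (Fin.castAdd D2 i) = if (i : ℕ) < l / (D2 + 1) then 1 else 0 := by
  unfold pos
  rw [if_pos (by rw [Fin.val_castAdd]; exact i.isLt), Fin.val_castAdd]

lemma pos_natAdd (D1 D2 l : ℕ) (i : Fin D2) :
    pos D1 D2 l (Fin.natAdd D1 i) = if (i : ℕ) < l % (D2 + 1) then 2 else 0 := by
  unfold pos
  have h : (Fin.natAdd D1 i : ℕ) = D1 + i := Fin.val_natAdd D1 i
  rw [if_neg (by omega), h, Nat.add_sub_cancel_left]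

lemma sum_wt {u D1 D2 l : ℕ} (hu : u ≤ (D1 + 1) * (D2 + 1)) (hl : l < u) :
    ∑ s, wt D2 (pos D1 D2 l s) = l := by
  rw [Fin.sum_univ_add]
  have h1 : ∀ i : Fin D1, wt D2 (pos D1 D2 l (Fin.castAdd D2 i)) =
      if (i : ℕ) < l / (D2 + 1) then D2 + 1 else 0 := by
    intro i
    rw [pos_castAdd]
    unfold wt
    by_cases h : (i : ℕ) < l / (D2 + 1)
    · rw [if_pos h, if_pos h, if_pos rfl]
    · rw [if_neg h, if_neg h, if_neg (by omega), if_neg (by omega)]
  have h2 : ∀ i : Fin D2, wt D2 (pos D1 D2 l (Fin.natAdd D1 i)) =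
      if (i : ℕ) < l % (D2 + 1) then 1 else 0 := by
    intro i
    rw [pos_natAdd]
    unfold wt
    by_cases h : (i : ℕ) < l % (D2 + 1)
    · rw [if_pos h, if_pos h, if_neg (by omega), if_pos rfl]
    · rw [if_neg h, if_neg h, if_neg (by omega), if_neg (by omega)]
  rw [Finset.sum_congr rfl fun i _ => h1 i, Finset.sum_congr rfl fun i _ => h2 i]
  have h3 : l / (D2 + 1) ≤ D1 := by
    have h4 : l < (D2 + 1) * (D1 + 1) := by
      rw [Nat.mul_comm]
      exact lt_of_lt_of_le hl hu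
    have h5 := Nat.div_lt_of_lt_mul h4
    omega
  have h4 : l % (D2 + 1) ≤ D2 := by
    have := Nat.mod_lt l (show 0 < D2 + 1 by omega)
    omega
  rw [sum_top h3, sum_top h4, mul_one]
  have h5 := Nat.div_add_mod l (D2 + 1)
  rw [Nat.mul_comm] at h5
  exact h5

lemma card_lf {D1 D2 m : ℕ} (i : ℕ) :
    (univ.filter fun s : Fin (D1 + D2) => i < lf D1 D2 m s).card =
      (if i < 2 then D1 else 0) + if i < m then D2 else 0 := by
  rw [Finset.card_filter, Fin.sum_univ_add]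
  congr 1
  · have h1 : ∀ s : Fin D1, (if i < lf D1 D2 m (Fin.castAdd D2 s) then 1 else 0) =
        if i < 2 then 1 else 0 := by
      intro s
      have hh : ((Fin.castAdd D2 s : Fin (D1 + D2)) : ℕ) < D1 := by
        rw [Fin.val_castAdd]; exact s.isLt
      unfold lf
      rw [if_pos hh]
    rw [Finset.sum_congr rfl fun s _ => h1 s, Finset.sum_const, Finset.card_univ,
      Fintype.card_fin, smul_eq_mul]
    split_ifs <;> omega
  · have h1 : ∀ s : Fin D2, (if i < lf D1 D2 m (Fin.natAdd D1 s) then 1 else 0) =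
        if i < m then 1 else 0 := by
      intro s
      have hh : ¬ ((Fin.natAdd D1 s : Fin (D1 + D2)) : ℕ) < D1 := by
        rw [Fin.val_natAdd]; omega
      unfold lf
      rw [if_neg hh]
    rw [Finset.sum_congr rfl fun s _ => h1 s, Finset.sum_const, Finset.card_univ,
      Fintype.card_fin, smul_eq_mul]
    split_ifs <;> omega

lemma lr_eq_lf (R2 R3 m : ℕ) : lr R2 R3 m = lf R2 R3 m := rfl

lemma two_le_lf {D1 D2 m : ℕ} (hm : 3 ≤ m) (s : Fin (D1 + D2)) :
    2 ≤ lf D1 D2 m s ∧ lf D1 D2 m s ≤ m := by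
  unfold lf
  split_ifs <;> omega

lemma pos_lt {D1 D2 m : ℕ} (hm : 3 ≤ m) (l : ℕ) (s : Fin (D1 + D2)) :
    pos D1 D2 l s < lf D1 D2 m s := by
  unfold pos lf
  split_ifs <;> omega

/-- Twice the number of the class letters. -/
lemma sum_ff {m f₀ f₂ : ℕ} (hm : 3 ≤ m) (h0 : 1 ≤ f₀) (h2 : m ≤ f₂) :
    2 * ∑ r : Fin m, ff m f₀ f₂ r + (2 + (m - 2) * (m - 3)) = 4 * f₀ + 2 * ((m - 2) * f₂) := by
  obtain ⟨k, rfl⟩ : ∃ k, m = k + 2 := ⟨m - 2, by omega⟩
  rw [Fin.sum_univ_succ, Fin.sum_univ_succ]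
  have h3 : ff (k + 2) f₀ f₂ 0 = f₀ := by
    unfold ff
    rw [if_pos (by rw [Fin.val_zero]; omega), Fin.val_zero, Nat.sub_zero]
  have h4 : ff (k + 2) f₀ f₂ (Fin.succ 0) = f₀ - 1 := by
    unfold ff
    rw [if_pos (by rw [Fin.val_succ, Fin.val_zero]; omega), Fin.val_succ, Fin.val_zero]
  have h5 : ∀ i : Fin k, ff (k + 2) f₀ f₂ i.succ.succ = f₂ - (i : ℕ) := by
    intro i
    unfold ff
    rw [if_neg (by rw [Fin.val_succ, Fin.val_succ]; omega), Fin.val_succ, Fin.val_succ]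
    congr 1
  rw [h3, h4, Finset.sum_congr rfl fun i _ => h5 i]
  have h6 := RG.H968.sum_cls (m := k) (f₀ := f₂) (by omega)
  have h7 : k + 2 - 2 = k := by omega
  have h8 : k + 2 - 3 = k - 1 := by omega
  rw [h7, h8]
  omega

/-- The arithmetic of the slots. -/
lemma slots {a b u F L2 L3 S f₀ f₂ F₀ F₂ p q : ℕ} (h1 : 2 * F + (2 + q) = 4 * f₀ + 2 * (p * f₂))
    (h2 : u + F = b) (h3 : L2 + L3 = f₀ * a + F₀) (h4 : L3 = f₂ * a + F₂)
    (h5 : 2 * L2 + (p + 2) * L3 + S = a * b) :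
    2 * (u * a) = 2 * S + (4 * F₀ + 2 * a + 2 * (p * F₂) + a * q) := by
  zify at h1 h2 h3 h4 h5 ⊢
  linear_combination (-(a : ℤ)) * h1 + 2 * (a : ℤ) * h2 + 4 * h3 + 2 * (p : ℤ) * h4 - 2 * h5

/-- **[LOW]** -/
theorem low (hMat : MatLG) (hDes : DesRH) : LowRH := by
  intro n a b u m D1 D2 R2 R3 f₀ f₂ F₀ F₂ T s G lam η hD hub hmn hnu hu3 hsum hη hlam hG hG1
  have hD' := hD
  obtain ⟨hm, hu, hs, huD, hL, hL3, hF0, hF2, hR2, hR3, h4T, h8, hus, hTf, h2m, hff⟩ := hD
  set S : ℕ := ∑ i, η i with hS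
  have h1 := sum_ff (m := m) (f₀ := f₀) (f₂ := f₂) hm (by omega) (by omega)
  -- the sum of the rows
  have h2 : 2 * (u * D1 + R2) + (m - 2 + 2) * (u * D2 + R3) + S = a * b := by
    rw [← hsum, ← Finset.sum_congr rfl fun i _ => hlam i, Finset.sum_add_distrib,
      Finset.sum_add_distrib, sum_top (by omega), sum_top hmn]
    have h3 : m - 2 + 2 = m := by omega
    rw [h3]
  have h3 := slots (a := a) (b := b) (u := u) (F := ∑ r : Fin m, ff m f₀ f₂ r)
    (L2 := u * D1 + R2) (L3 := u * D2 + R3) (S := S) (f₀ := f₀) (f₂ := f₂) (F₀ := F₀) (F₂ := F₂)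
    (p := m - 2) (q := (m - 2) * (m - 3)) h1 hub hL hL3 h2
  have h4 : u * (D1 + D2 + s + 2 * T) + S ≤ u * a := by
    have h5 : 0 ≤ 2 * a + 2 * ((m - 2) * F₂) + a * ((m - 2) * (m - 3)) := Nat.zero_le _
    omega
  have hca : D1 + D2 + s + 2 * T ≤ a := by
    refine Nat.le_of_mul_le_mul_left (le_trans (Nat.le_add_right _ _) h4) (by omega)
  have h5 : S ≤ u * (a - (D1 + D2 + s + 2 * T)) := by
    rw [Nat.mul_sub]
    omega
  have hd1 : ∀ i, bal u S i ≤ a - (D1 + D2 + s + 2 * T) := bal_le_of h5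
  have hd2 : ∀ i, bal u S i ≤ a := fun i => le_trans (hd1 i) (Nat.sub_le _ _)
  have hsd := sum_bal (u := u) (by omega) S
  have hse : ∑ i : Fin u, (a - bal u S i) + S = u * a := by
    have h7 : ∑ i : Fin u, (a - bal u S i) + ∑ i : Fin u, bal u S i = u * a := by
      rw [← Finset.sum_add_distrib]
      have h6 : ∀ i ∈ (univ : Finset (Fin u)), a - bal u S i + bal u S i = a :=
        fun i _ => Nat.sub_add_cancel (hd2 i)
      rw [Finset.sum_congr rfl h6, Finset.sum_const, Finset.card_univ, Fintype.card_fin,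
        smul_eq_mul]
    rwa [hsd] at h7
  have hdes := hDes u m D1 D2 R2 R3 a f₀ f₂ F₀ F₂ T s (fun i => a - bal u S i) hD'
    (by
      have h7 : 2 * ∑ i : Fin u, (a - bal u S i) + 2 * S = 2 * (u * a) := by omega
      omega)
    (fun i => by have := hd1 i; omega)
  have hmat := hMat (n + 2) a b u m (D1 + D2) (R2 + R3) (ff m f₀ f₂) (lf D1 D2 m) (lr R2 R3 m)
    (pos D1 D2) (wt D2) lam η (bal u S) (by omega) hmn (two_le_lf hm)
    (by rw [lr_eq_lf]; exact two_le_lf hm) (fun l _ s => pos_lt hm l s) rfl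
    (by unfold wt; rw [if_pos rfl]; omega) (fun l hl => sum_wt huD hl) hub hη (bal_le u S) hsd hd2
    hdes (by
      intro i
      rw [lr_eq_lf, card_lf, card_lf, ← hlam i]
      split_ifs <;> ring)
  have hx : G + T4.ex η 2 ≤ η 1 := by
    unfold T4.ex
    split_ifs with h6
    · exact hG ⟨2, h6⟩ le_rfl
    · omega
  have hpeel := H752.peel2 (n := n) (M := u - 2) (x := G) η (by omega) hη hx
  have hu2 : u - 2 + 2 = u := by omega
  have hu1 : u - 2 + 1 = u - 1 := by omega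
  rw [hu2, hu1] at hpeel
  -- the binomial coefficient
  have hch : (S + u - 1).choose (u - 1) * (u - 1).factorial ≤ (2 * a * b) ^ (u - 1) := by
    rw [mul_comm, ← Nat.descFactorial_eq_factorial_mul_choose]
    refine le_trans (Nat.descFactorial_le_pow _ _) (Nat.pow_le_pow_left ?_ _)
    have h8 : S ≤ a * b := by omega
    have h9 : u ≤ b := by omega
    have h10 : b ≤ a * b := Nat.le_mul_of_pos_left b (by omega)
    have h11 : 2 * a * b = a * b + a * b := by ring
    omega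
  calc G ^ (2 * (u - 2)) * gt n (u - 2) (fun i => η i.succ.succ)
      ≤ gt (n + 2) u η * ((u - 1).factorial * (u - 2).factorial) := hpeel
    _ ≤ ((S + u - 1).choose (u - 1) * (u.factorial * plethMult b a (n + 2) lam)) *
        ((u - 1).factorial * (u - 2).factorial) := Nat.mul_le_mul_right _ hmat
    _ = ((S + u - 1).choose (u - 1) * (u - 1).factorial) *
        (u.factorial * (u - 2).factorial) * plethMult b a (n + 2) lam := by ring
    _ ≤ (2 * a * b) ^ (u - 1) * (u.factorial * (u - 2).factorial) *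
        plethMult b a (n + 2) lam := by
        refine Nat.mul_le_mul_right _ (Nat.mul_le_mul_right _ hch)

end Vale.Agent.P181.RH.H486
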