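import Vale.Agent.P181.RH.H486.Closed
import Vale.Agent.P181.RH.H410.Fin
import Vale.Agent.P181.HO.H207.All
import Vale.Agent.P181.FD.H422.All
import Vale.Agent.P181.PLX.Main

set_option autoImplicit false

/-!
# P181, RH: `b ≥ (1 + δ) a` and at least `a * polylog` cells below row two, no hypothesis left
-/

namespace Vale.Agent.P181.RH.H486

open Vale.Agent.P181

/-- **the theorem of this line** -/
theorem finRH : FinRH := H410.finRH coreRH coreRA HO.uniYc FD.fatLog PLX.polyS

end Vale.Agent.P181.RH.H486
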