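import Vale.Agent.P181.RH.H486.ClosedU
import Vale.Agent.P181.RH.H410.NearA
import Vale.Agent.P181.HO.H207.All
import Vale.Agent.P181.FD.H422.All
import Vale.Agent.P181.PLX.Main

set_option autoImplicit false

/-!
# P181, RHU: one clause for every `a ≤ b`, no hypothesis left
-/

namespace Vale.Agent.P181.RH.H486

open Vale.Agent.P181

/-- **There is one constant `C` with the inequality for all `a ≤ b`, all `λ` with
`C * b * log (2 + log a) ≤ (b - a) * log (D_2 / a)`.** -/
theorem nearA : NearA := H410.nearA coreRHU corVU HO.uniYc FD.fatLog PLX.polyS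

end Vale.Agent.P181.RH.H486
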