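import Vale.Agent.P181.RH.H486.Low
import Vale.Agent.P181.RH.H348.Mat3
import Vale.Agent.P181.RH.H935.DesA
import Vale.Agent.P181.RH.H467.DesB2
import Vale.Agent.P181.RH.H283.Par
import Vale.Agent.P181.RH.H237.Num
import Vale.Agent.P181.RH.H460.PeakRH
import Vale.Agent.P181.RH.H752.Core
import Vale.Agent.P181.RH.H752.CoreA
import Vale.Agent.P181.RG.H460.Ext
import Vale.Agent.P181.RG.H452.Half
import Vale.Agent.P181.RG.H348.Mat3
import Vale.Agent.P181.RG.H467.Des
import Vale.Agent.P181.RV.H34.Par
import Vale.Agent.P181.RV.H201.Num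
import Vale.Agent.P181.RV.H153.Top
import Vale.Agent.P181.RV.H233.Core
import Vale.Agent.P181.TL.H214.UpB

set_option autoImplicit false

/-!
# P181, RH: the core, no hypothesis left
-/

namespace Vale.Agent.P181.RH.H486

open Vale.Agent.P181

/-- the design -/
theorem des : DesRH := fun u m D1 D2 R2 R3 k f₀ f₂ F₀ F₂ T s e hN he hei =>
  H467.desB2 RG.H460.ext H460.peakRH u m D1 D2 R2 R3 k f₀ f₂ F₀ F₂ T s e hN
    (H935.desA2 RG.H460.ext u m D1 D2 R2 R3 k f₀ f₂ F₀ F₂ T s e hN he hei)

/-- the lower bound -/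
theorem lowc : LowRH := low H348.matLG des

/-- the core -/
theorem coreRH : CoreRH := H752.coreRH H283.par lowc H237.numRH RG.H452.half

/-- the core for a long third row -/
theorem corV : RV.CorV :=
  RV.H233.corV RG.H348.matRG RG.H467.desRG RG.H452.half RV.H34.par RV.H201.numV RV.H153.topV
    TL.H214.upB

/-- the core for a long third row -/
theorem coreRA : CoreRA := H752.coreRA corV

end Vale.Agent.P181.RH.H486
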