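import Vale.Agent.P181.RH.H486.Closed
import Vale.Agent.P181.RH.H283.ParU
import Vale.Agent.P181.RH.H237.NumU
import Vale.Agent.P181.RH.H694.CoreU
import Vale.Agent.P181.RV.H627.CoreU
import Vale.Agent.P181.RV.H627.NumU

set_option autoImplicit false

/-!
# P181, RHU: the uniform cores, no hypothesis left
-/

namespace Vale.Agent.P181.RH.H486

open Vale.Agent.P181

/-- the uniform core -/
theorem coreRHU : CoreRHU := H694.coreRHU H283.parU lowc H237.numRHU RG.H452.half

/-- the uniform core for a long third row -/
theorem corVU : RV.CorVU :=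
  RV.H627.corVU RG.H348.matRG RG.H467.desRG RG.H452.half RV.H34.par RV.H627.numVU
    RV.H153.topV TL.H214.upB

end Vale.Agent.P181.RH.H486
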